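import Vale.Agent.P354CB.Ez

/-!
A chain of chronologically ordered points lies on one future curve.
-/

open Set Filter Topology

namespace Vale.Agent.P354CB2

open Vale.Agent.P354n
open Vale.Agent.P354CB

/-- Gluing of an increasing sequence of curves. -/
theorem glue (B : B0) {M : Spc} {a c : ℝ} {t : ℕ → ℝ} {W : ℕ → ℝ → M.pt} (tm : Monotone t)
    (tc : ∀ n, t n < c) (ct : ∀ x < c, ∃ n, x < t n) (hW : ∀ n, Cv M (Icc a (t n)) (W n))
    (he : ∀ n, EqOn (W (n + 1)) (W n) (Icc a (t n))) :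
    ∃ w, Cv M (Ico a c) w ∧ ∀ n, EqOn w (W n) (Icc a (t n)) := by
  have mo : ∀ n m, n ≤ m → EqOn (W m) (W n) (Icc a (t n)) := fun n m k => by
    induction m, k using Nat.le_induction with
    | base => exact fun _ _ => rfl
    | succ m k ih => exact ((he m).mono (Icc_subset_Icc_right (tm k))).trans ih
  choose! N hN using ct
  have e : ∀ n, EqOn (fun x => W (N x) x) (W n) (Icc a (t n)) := fun n x hx =>
    (mo _ _ (le_max_left (N x) n) ⟨hx.1, (hN x (hx.2.trans_lt (tc n))).le⟩).symm.trans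
      (mo _ _ (le_max_right (N x) n) hx)
  refine ⟨fun x => W (N x) x, B.loc fun x hx => ⟨Icc a (t (N x)), W (N x), ?_,
    fun y hy => ⟨hy.1, hy.2.trans_lt (tc _)⟩, hW _, e _⟩, e⟩
  exact mem_nhdsWithin.2 ⟨Iio (t (N x)), isOpen_Iio, hN x hx.2, fun y hy => ⟨hy.2.1, hy.1.le⟩⟩

/-- One more piece. -/
theorem piece (B : B0) (C : CORNER) {M : Spc} (h : St M) {a b c : ℝ} {u : ℝ → M.pt} {p : M.pt}
    (ab : a < b) (bc : b < c) (hu : Cv M (Icc a b) u) (l : LL M (u b) p) :
    ∃ w, Cv M (Icc a c) w ∧ EqOn w u (Icc a b) ∧ w c = p := by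
  obtain ⟨v, v1, v2, rfl⟩ := l
  have d : 0 < c - b := sub_pos.2 bc
  obtain ⟨w, w1, w2, w3⟩ := C M h a b c u (fun x => v (-(b * (c - b)⁻¹) + x * (c - b)⁻¹)) ab bc hu
    (B.aff h (inv_pos.2 d) (uniqueDiffOn_Icc bc) (I := Icc 0 1) (fun x hx => by
      have e : -(b * (c - b)⁻¹) + x * (c - b)⁻¹ = (x - b) / (c - b) := by ring
      simp only [e]
      exact ⟨div_nonneg (sub_nonneg.2 hx.1) d.le, (div_le_one d).2 (by linarith [hx.2])⟩) v1)
    (by simpa using v2.symm)
  refine ⟨w, w1, w2, w3.trans (congrArg v ?_)⟩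
  field_simp
  ring

theorem chain (B : B0) (C : CORNER) : CHAIN := fun M h a b u q ab hu q0 hq => by
  let t : ℕ → ℝ := fun n => b + 1 - (1 / 2) ^ n
  have t0 : t 0 = b := by simp [t]
  have tm : StrictMono t := strictMono_nat_of_lt_succ fun n => by
    have : (0 : ℝ) < (1 / 2) ^ n := by positivity
    simp only [t, pow_succ]
    linarith
  have at' : ∀ n, a < t n := fun n => ab.trans_le (t0 ▸ tm.monotone n.zero_le)
  have st : ∀ n (w : ℝ → M.pt), ∃ w' : ℝ → M.pt, Cv M (Icc a (t n)) w ∧ w (t n) = q n →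
      Cv M (Icc a (t (n + 1))) w' ∧ EqOn w' w (Icc a (t n)) ∧ w' (t (n + 1)) = q (n + 1) :=
    fun n w => by
      by_cases k : Cv M (Icc a (t n)) w ∧ w (t n) = q n
      · exact (piece B C h (at' n) (tm n.lt_succ_self) k.1 (k.2 ▸ hq n)).imp fun _ m _ => m
      · exact ⟨w, fun m => absurd m k⟩
  choose f hf using st
  let W : ℕ → ℝ → M.pt := fun n => Nat.rec u f n
  have hW : ∀ n, Cv M (Icc a (t n)) (W n) ∧ W n (t n) = q n := fun n => by
    induction n with
    | zero => rw [t0]; exact ⟨hu, q0.symm⟩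
    | succ n ih => exact ⟨(hf n _ ih).1, (hf n _ ih).2.2⟩
  obtain ⟨w, w1, w2⟩ := glue B (c := b + 1) tm.monotone
    (fun n => sub_lt_self _ (by positivity)) (fun x hx => by
      obtain ⟨n, k⟩ := exists_pow_lt_of_lt_one (sub_pos.2 hx) (show (1 / 2 : ℝ) < 1 by norm_num)
      exact ⟨n, by simp only [t]; linarith⟩) (fun n => (hW n).1) fun n => (hf n _ (hW n)).2.1
  exact ⟨w, w1, by have := w2 0; rwa [t0] at this,
    fun n => (w2 n (right_mem_Icc.2 (at' n).le)).trans (hW n).2⟩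

end Vale.Agent.P354CB2
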